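import Vale.Agent.P146.H645.CSys
import Vale.Agent.P146.H522.SkDic
import Vale.Agent.P146.H713.SkC2

/-!
Plan R1: the SK model is a position system.
-/

open MeasureTheory ProbabilityTheory

namespace Vale.Agent.P146.R1S

open Vale.Agent.P157.Lv Vale.Agent.P146.H425 Vale.Agent.P146.H325 Vale.Agent.P146.H332
  Vale.Agent.P146.H712 Vale.Agent.P146.H816 Vale.Agent.P146.R1 Vale.Agent.P146.R1C Matrix

set_option linter.unusedSectionVars false

variable {n : ℕ} (k x : ℝ)

/-- the gradient of the free energy of the SK model -/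
noncomputable def skD (e : Pair n) (u : Pair n → ℝ) : ℝ := k * av k SkS (SkS e) u

/-- the law of the root configuration -/
noncomputable def skmu (s : ℝ) (z : Pair n → ℝ) (σ : Fin n → ℤˣ) : ℝ :=
  RR k SkS x (cf s) (av k SkS fun τ => if τ = σ then 1 else 0) z

variable {k x}

lemma RR_sum {κ : Type} (t : Finset κ) (c : Pair n → ℝ) {G : κ → (Pair n → ℝ) → ℝ}
    (hG : ∀ i ∈ t, EG (G i)) (v : Pair n → ℝ) :
    RR k (SkS (n := n)) x c (fun u => ∑ i ∈ t, G i u) v = ∑ i ∈ t, RR k SkS x c (G i) v := by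
  classical
  induction t using Finset.induction_on with
  | empty =>
    simp only [Finset.sum_empty]
    exact H522.RR_const k SkS x c 0 v
  | insert a t ha ih =>
    simp only [Finset.sum_insert ha]
    rw [H522.RR_add k SkS x c (hG a (Finset.mem_insert_self _ _))
      (EG.sum t fun i hi => hG i (Finset.mem_insert_of_mem hi)),
      ih fun i hi => hG i (Finset.mem_insert_of_mem hi)]

/-- conditional expectations of Gibbs averages are means under the root law -/
lemma RR_av (s : ℝ) (z : Pair n → ℝ) (h : (Fin n → ℤˣ) → ℝ) :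
    RR k SkS x (cf s) (av k SkS h) z = ∑ σ, skmu k x s z σ * h σ := by
  have e1 : av k SkS h = fun u : Pair n → ℝ =>
      ∑ σ, h σ * av k SkS (fun τ => if τ = σ then 1 else 0) u := by
    funext u
    have e2 : h = fun τ => ∑ σ, h σ * (if τ = σ then (1 : ℝ) else 0) := by
      funext τ
      simp
    conv_lhs => rw [e2]
    rw [av_sum]
    exact Finset.sum_congr rfl fun σ _ => av_mul _ _ _ _ _
  rw [e1, RR_sum _ _ fun σ _ => (eg_av k SkS _).const_mul _]
  refine Finset.sum_congr rfl fun σ _ => ?_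
  rw [H522.RR_const_mul, mul_comm]
  rfl

lemma abs_RR_av_ind (s : ℝ) (z : Pair n → ℝ) (σ : Fin n → ℤˣ) : |skmu k x s z σ| ≤ 1 := by
  refine abs_RR_le k SkS x (eg_av k SkS _) (fun u => ?_) _ _
  refine abs_av_le k SkS (fun τ => ?_) u
  split_ifs <;> simp

lemma skmu_nonneg (s : ℝ) (z : Pair n → ℝ) (σ : Fin n → ℤˣ) : 0 ≤ skmu k x s z σ := by
  unfold skmu RR
  refine div_nonneg ?_ (DD_pos k SkS x (cf s) z).le
  unfold PP
  refine integral_nonneg fun g => mul_nonneg (Real.exp_pos _).le (av_nonneg k SkS (fun τ => ?_) _)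
  split_ifs <;> simp

/-- **The SK model is a position system.** -/
noncomputable def skCS (n : ℕ) {k x : ℝ} (hk : 0 < k) (hx : 0 < x) (hx1 : x ≤ 1) : CS n k x where
  F := lz k SkS
  D := skD k
  bB := Kb k (SkS (n := n))
  bL := 3 * Kb k (SkS (n := n)) ^ 2
  A := AA k x
  DA := DC k x
  H := fun s b => HH k x s b
  mu := skmu k x
  T4 := T4 k x
  k0 := hk
  x0 := hx
  x1 := hx1
  c11 := c11_lz k SkS
  cv := cv_lz k SkS
  F_act := fun π z => by
    show Real.log (Zp k SkS (H816.act π z)) = Real.log (Zp k SkS z)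
    rw [Zp_act]
  F_fl := fun b z => by
    show Real.log (Zp k SkS (fl b z)) = Real.log (Zp k SkS z)
    have h : Zp k (SkS (n := n)) (fl b z) = Zp k SkS z := Zp_flp b z
    rw [h]
  dd_eq := fun s e z => H522.dd_sk k x s e z
  mu0 := skmu_nonneg
  mu1 := fun s z => by
    have h := RR_av (k := k) (x := x) s z fun _ => 1
    simp only [mul_one] at h
    rw [← h]
    have e : av k (SkS (n := n)) (fun _ => 1) = fun _ => 1 := by
      funext u
      unfold av Zp
      simp only [mul_one]
      exact div_self (Zp_pos k SkS u).ne'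
    rw [e]
    exact H522.RR_const k SkS x _ 1 z
  eg_mu := fun s σ => EG.of_bdd (meas_RR k SkS x (eg_av k SkS _) _) fun z => abs_RR_av_ind s z σ
  A_mu := fun s z i j => RR_av s z (pr i j)
  T4_mu := fun s z i j p q => RR_av s z fun σ => pr i j σ * pr p q σ
  fd_A := fun s i j z => fd_AA i j z
  eg_DA := fun s e i j => eg_DC hx.le e i j
  DA_row := fun hs _ _ he z i => DC_row hs he z i
  H_comm := fun s b z i j => HH_comm b z i j
  H_row := fun hs b z i => HH_row hs b z i
  H_nonneg := fun hs b z v => qf_HH_nonneg hs hx.le hx1 b z v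
  H_le := fun hs b z v => qf_HH_le hs hx.le hx1 b z v
  cont_H := fun s b i j => cont_HH b i j
  kov := fun hs z => kov_pos hs hx.le hx1 z
  A_act := fun π s z p q => AA_act π s z p q
  A_fl_row := fun s _ _ hp z => AA_fl_row hp z
  A_fl_ne := fun s _ _ _ hp hq z => AA_fl_ne hp hq z
  H_fl := fun s _ _ _ hp hq z => HH_fl hp hq z

section

variable (hk : 0 < k) (hx : 0 < x) (hx1 : x ≤ 1)

@[simp] lemma skCS_F : (skCS n hk hx hx1).F = lz k SkS := rfl
@[simp] lemma skCS_D : (skCS n hk hx hx1).D = fun e u => k * av k SkS (SkS e) u := rfl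
@[simp] lemma skCS_A : (skCS n hk hx hx1).A = AA k x := rfl
@[simp] lemma skCS_DA : (skCS n hk hx hx1).DA = DC k x := rfl
@[simp] lemma skCS_H : (skCS n hk hx hx1).H = fun s b => HH k x s b := rfl
@[simp] lemma skCS_T4 : (skCS n hk hx hx1).T4 = T4 k x := rfl

/-- the smoothness data of the SK model -/
theorem sm_skCS : Sm (skCS n hk hx hx1).F (skCS n hk hx hx1).D (Kb k (SkS (n := n)))
    (3 * Kb k (SkS (n := n)) ^ 2) (Hz k SkS) (Tz k SkS) (2 * Kb k (SkS (n := n)) ^ 2) :=
  sm_lz k SkS

end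

end Vale.Agent.P146.R1S
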